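import Vale.Agent.P184.Pullback
import Vale.Agent.P184.Linear
import Vale.Agent.P184.DriftClass
import Vale.Agent.P184.Extend
import Vale.Agent.P184.Hadamard

namespace Vale.Agent.Results.P184.CocycleCriterion

open Vale.Agent.P184

universe u v

/-- A general criterion for vanishing of ℓ¹ trace coefficients at a class (inside every finitely
generated subgroup: a potential, or a homomorphism to an exact group with amenable centraliser of
an image of infinite order), and its application to isometric actions on spaces satisfying the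
CAT(0) quadrilateral inequality, with no properness, cocompactness or finite generation.
Moreover an amenable centraliser and positive drift for an arbitrary subadditive function (in
particular positive translation length in an isometric action on an arbitrary pseudometric space)
force vanishing, with no curvature or exactness hypothesis. -/
theorem result :
    (∀ (G : Type u) [Group G] (C : ConjClasses G),
      (∀ H : Subgroup G, H.FG → ∀ x : H, ConjClasses.mk (x : G) = C →
        HasPotential H x ∨ HasExactImage x) →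
      ∀ (q : ℕ) (e : Fin q → Fin q → G → ℂ), IsIdempotentMatrix e → hsTrace e C = 0) ∧
    (∀ (G : Type u) [Group G],
      (∀ g : G, ¬ IsOfFinOrder g → ∀ H : Subgroup G, H.FG → ∀ x : H, IsConj (x : G) g →
        HasPotential H x ∨ HasExactImage x) →
      {C : ConjClasses G | ∃ g, ConjClasses.mk g = C ∧ IsOfFinOrder g}.Finite →
      SatisfiesL1Bass G) ∧
    (∀ (G : Type u) [Group G] (Y : Type v) [MetricSpace Y] [MulAction G Y],
      (∀ (h : G) (a b : Y), dist (h • a) (h • b) = dist a b) →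
      (∀ a b c d : Y, dist a c ^ 2 + dist b d ^ 2 - dist a d ^ 2 - dist b c ^ 2 ≤
        2 * dist a b * dist c d) →
      ∀ o : Y,
        (∀ g : G, (∃ l : ℝ, 0 < l ∧ ∀ k : ℕ, l * k ≤ dist o (g ^ k • o)) →
          ∀ (q : ℕ) (e : Fin q → Fin q → G → ℂ), IsIdempotentMatrix e →
            hsTrace e (ConjClasses.mk g) = 0) ∧
        ((∀ g : G, ¬ IsOfFinOrder g → ∃ l : ℝ, 0 < l ∧ ∀ k : ℕ, l * k ≤ dist o (g ^ k • o)) →
          {C : ConjClasses G | ∃ g, ConjClasses.mk g = C ∧ IsOfFinOrder g}.Finite →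
            SatisfiesL1Bass G)) ∧
    (∀ (G : Type u) [Group G] (C : ConjClasses G),
      (∀ H : Subgroup G, H.FG → ∀ x : H, ConjClasses.mk (x : G) = C →
        ∃ (Q : Type u) (_ : Group Q) (π : H →* Q) (ell : Q → ℝ) (l : ℝ),
          IsAmenableGroup (Subgroup.centralizer ({π x} : Set Q)) ∧
          (∀ a b, ell (a * b) ≤ ell a + ell b) ∧ 0 < l ∧ ∀ k : ℕ, l * k ≤ ell (π x ^ k)) →
      ∀ (q : ℕ) (e : Fin q → Fin q → G → ℂ), IsIdempotentMatrix e → hsTrace e C = 0) ∧
    (∀ (G : Type u) [Group G] (Y : Type v) [PseudoMetricSpace Y] [MulAction G Y],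
      (∀ (h : G) (a b : Y), dist (h • a) (h • b) = dist a b) →
      ∀ (o : Y) (g : G), IsAmenableGroup (Subgroup.centralizer ({g} : Set G)) →
        (∃ l : ℝ, 0 < l ∧ ∀ k : ℕ, l * k ≤ dist o (g ^ k • o)) →
        ∀ (q : ℕ) (e : Fin q → Fin q → G → ℂ), IsIdempotentMatrix e →
          hsTrace e (ConjClasses.mk g) = 0) ∧
    (∀ (G : Type u) [Group G],
      {C : ConjClasses G | ∃ g, ConjClasses.mk g = C ∧ IsOfFinOrder g}.Finite →
      (∀ g : G, ¬ IsOfFinOrder g → IsAmenableGroup (Subgroup.centralizer ({g} : Set G))) →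
      (∀ H : Subgroup G, H.FG → ∀ x : H, ¬ IsOfFinOrder (x : G) →
        ∃ (ell : H → ℝ) (l : ℝ),
          (∀ a b, ell (a * b) ≤ ell a + ell b) ∧ 0 < l ∧ ∀ k : ℕ, l * k ≤ ell (x ^ k)) →
      SatisfiesL1Bass G) ∧
    (∀ (H : Type u) [Group H] (g : H), HasPotential H g ↔ ∃ χ ell : H → ℝ, χ g ≠ 0 ∧
      (∀ a b, a * g = g * a → b * g = g * b → χ (a * b) = χ a + χ b) ∧
      (∀ a b, ell (a * b) ≤ ell a + ell b) ∧ ∀ c, c * g = g * c → χ c ≤ ell c) ∧
    (∀ (G : Type u) [Group G] (Y : Type v) [MetricSpace Y] [CompleteSpace Y] [MulAction G Y],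
      (∀ a b : Y, ∃ m : Y, ∀ z : Y,
        dist z m ^ 2 ≤ (dist z a ^ 2 + dist z b ^ 2) / 2 - dist a b ^ 2 / 4) →
      (∀ (h : G) (a b : Y), dist (h • a) (h • b) = dist a b) →
      ∀ o : Y, (∀ R : ℝ, {g : G | dist o (g • o) ≤ R}.Finite) →
        (∃ D : ℝ, ∀ y : Y, ∃ g : G, dist y (g • o) ≤ D) → SatisfiesL1Bass G) := by
  refine ⟨fun G _ C hC q e he => hsTrace_eq_zero_of_images he C hC,
    fun G _ hall hfin q e he => bassConclusion_of_finite hfin fun g hg =>
      hsTrace_eq_zero_of_images he _ fun H hH x hx =>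
        hall g hg H hH x (ConjClasses.mk_eq_mk_iff_isConj.1 hx),
    fun G _ Y _ _ hiso hquad o => ?_,
    fun G _ C hC q e he => hsTrace_eq_zero_of_drift C hC he,
    fun G _ Y _ _ hiso o g ham ⟨l, hl, hgrow⟩ q e he =>
      hsTrace_eq_zero_of_translation hiso o g ham hl hgrow he,
    fun G _ hfin ham hdrift => satisfiesL1Bass_of_drift hfin ham hdrift,
    fun H _ g => hasPotential_iff_dominated g,
    fun G _ Y _ _ _ hmid hiso o hp hc => satisfiesL1Bass_of_hadamard hmid hiso o hp hc⟩
  have h : ∀ g : G, (∃ l : ℝ, 0 < l ∧ ∀ k : ℕ, l * k ≤ dist o (g ^ k • o)) →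
      ∀ (q : ℕ) (e : Fin q → Fin q → G → ℂ), IsIdempotentMatrix e →
        hsTrace e (ConjClasses.mk g) = 0 := fun g ⟨l, hl, hgrow⟩ q e he =>
    hsTrace_eq_zero_of_global he g (hasPotential_of_action hiso hquad g o hl hgrow)
  exact ⟨h, fun hall hfin q e he =>
    bassConclusion_of_finite hfin fun g hg => h g (hall g hg) q e he⟩

end Vale.Agent.Results.P184.CocycleCriterion
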