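import Vale.Agent.P184.ArithThree
import Vale.Agent.P184.Commutant

namespace Vale.Agent.Results.P184.DegreeThree

open Vale.Agent.P184

universe u v

/-- The ℓ¹-Bass conjecture for the infinite-order classes of all linear groups of degree at most
three over any field and, in any degree, at elements whose commutant is commutative modulo
nilpotents; in full for the finite index subgroups of GL₃(ℤ[1/m]), in particular for SL₃(ℤ). -/
theorem result :
    (∀ (G : Type u) [Group G] (K : Type v) [Field K] (n : ℕ), n ≤ 3 →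
      ∀ ρ : G →* GL (Fin n) K, Function.Injective ρ →
        (∀ g : G, ¬ IsOfFinOrder g → ∀ (q : ℕ) (e : Fin q → Fin q → G → ℂ),
          IsIdempotentMatrix e → hsTrace e (ConjClasses.mk g) = 0) ∧
        ({C : ConjClasses G | ∃ g, ConjClasses.mk g = C ∧ IsOfFinOrder g}.Finite →
          SatisfiesL1Bass G)) ∧
    (∀ (G : Type u) [Group G] (K : Type v) [Field K] (n : ℕ) (ρ : G →* GL (Fin n) K) (g : G),
      ¬ IsOfFinOrder (ρ g) →
      (HasSolvableCommutant (ρ g : Matrix (Fin n) (Fin n) K) ∨
        ∀ B C : Matrix (Fin n) (Fin n) K,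
          B * (ρ g : Matrix (Fin n) (Fin n) K) = (ρ g : Matrix (Fin n) (Fin n) K) * B →
          C * (ρ g : Matrix (Fin n) (Fin n) K) = (ρ g : Matrix (Fin n) (Fin n) K) * C →
          B * C = C * B) →
      ∀ (q : ℕ) (e : Fin q → Fin q → G → ℂ), IsIdempotentMatrix e →
        hsTrace e (ConjClasses.mk g) = 0) ∧
    (∀ m : ℕ, 0 < m → ∀ Γ : Subgroup (GL (Fin 3) (Localization.Away (m : ℤ))),
      Γ.FiniteIndex → SatisfiesL1Bass Γ) ∧
    SatisfiesL1Bass (Matrix.SpecialLinearGroup (Fin 3) ℤ) := by
  refine ⟨fun G _ K _ n hn ρ hρ => ?_,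
    fun G _ K _ n ρ g hg hsol q e he => hsTrace_eq_zero_commutant ρ g hg
      (hsol.elim id (hasSolvableCommutant_of_comm _)) he,
    fun m hm Γ hΓ => ?_, ?_⟩
  · have h : ∀ g : G, ¬ IsOfFinOrder g → ∀ (q : ℕ) (e : Fin q → Fin q → G → ℂ),
        IsIdempotentMatrix e → hsTrace e (ConjClasses.mk g) = 0 :=
      fun g hg q e he => hsTrace_eq_zero_degree_three hn ρ hρ g hg he
    exact ⟨h, fun hfin q e he => bassConclusion_of_finite hfin fun g hg => h g hg q e he⟩
  · set L := Localization.Away (m : ℤ)
    have hm0 : (m : ℤ) ≠ 0 := Int.natCast_ne_zero.2 hm.ne'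
    have hle : Submonoid.powers (m : ℤ) ≤ nonZeroDivisors ℤ :=
      powers_le_nonZeroDivisors_of_noZeroDivisors hm0
    have : IsDomain L := IsLocalization.isDomain_of_le_nonZeroDivisors L hle
    have : CharZero L := charZero_of_injective_algebraMap (IsLocalization.injective L hle)
    have : IsPrincipalIdealRing L := ⟨fun I => by
      rw [← IsLocalization.map_comap (Submonoid.powers (m : ℤ)) L I]
      obtain ⟨a, ha⟩ := (IsPrincipalIdealRing.principal (I.comap (algebraMap ℤ L)))
      exact ⟨⟨algebraMap ℤ L a, by rw [show Ideal.under ℤ I = Submodule.span ℤ {a} from ha, ← Ideal.span, Ideal.map_span, Set.image_singleton]⟩⟩⟩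
    have hunit : IsUnit ((Int.castRingHom ℚ) (m : ℤ)) := by simp [hm.ne']
    let f : L →+* ℚ := IsLocalization.Away.lift (m : ℤ) hunit
    have hf : ∀ z, f (algebraMap ℤ L z) = (z : ℚ) := fun z =>
      IsLocalization.Away.lift_eq (m : ℤ) hunit z
    have hfinj : Function.Injective f :=
      (IsLocalization.lift_injective_iff _).2 fun x y => by
        rw [(IsLocalization.injective L hle).eq_iff]; simp
    have hP : ∀ r, DenIn m.primeFactors (f r) := by
      intro r p hp hd
      obtain ⟨⟨z, ⟨_, k, rfl⟩⟩, hz⟩ := IsLocalization.surj (Submonoid.powers (m : ℤ)) r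
      have h1 := congrArg f hz
      rw [map_mul, hf, hf] at h1
      push_cast at h1
      have h2 : f r = (Rat.divInt z ((m : ℤ) ^ k)) := by
        rw [Rat.divInt_eq_div, ← h1]; push_cast; field_simp
      rw [h2] at hd
      have h3 := (Int.natCast_dvd_natCast.2 hd).trans (Rat.den_dvd z ((m : ℤ) ^ k))
      exact Nat.mem_primeFactors.2 ⟨hp, hp.dvd_of_dvd_pow (by exact_mod_cast h3), hm.ne'⟩
    have hgen : ∀ (Q : Type) [CommRing Q] (π : L →+* Q), Function.Surjective π → π 2 = 0 →
        Finite Q := by
      intro Q _ π hπ h20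
      have hint : ∀ z : ℤ, π (algebraMap ℤ L z) = 0 ∨ π (algebraMap ℤ L z) = 1 := by
        intro z
        rcases Int.even_or_odd' z with ⟨w, rfl | rfl⟩
        · exact Or.inl (by rw [map_mul, map_mul, map_ofNat, h20, zero_mul])
        · exact Or.inr (by rw [map_add, map_add, map_mul, map_mul, map_ofNat, h20, zero_mul,
            zero_add, map_one, map_one])
      have hall : ∀ x : Q, x ∈ ({0, 1} : Set Q) := fun x => by
        obtain ⟨r, rfl⟩ := hπ x
        obtain ⟨⟨z, ⟨s, hs⟩⟩, hz⟩ := IsLocalization.surj (Submonoid.powers (m : ℤ)) r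
        have h1 := congrArg π hz
        have hu : IsUnit (π (algebraMap ℤ L s)) :=
          (IsLocalization.map_units L (⟨s, hs⟩ : Submonoid.powers (m : ℤ))).map π
        rw [map_mul] at h1
        rcases hint s with h | h <;> simp only [h] at h1 hu
        · exact Or.inl (eq_zero_of_zero_eq_one (isUnit_zero_iff.1 hu) _)
        · rw [mul_one] at h1
          rw [h1]
          exact hint z
      exact Set.finite_univ_iff.1 (((Set.finite_singleton _).insert _).subset fun x _ => hall x)
    have : Finite (L ⧸ Ideal.span ({2} : Set L)) :=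
      hgen _ (Ideal.Quotient.mk (Ideal.span ({2} : Set L))) Ideal.Quotient.mk_surjective
        (Ideal.Quotient.eq_zero_iff_mem.2 (Ideal.mem_span_singleton_self _))
    have : Γ.subtype.range.FiniteIndex := by rwa [Subgroup.range_subtype]
    exact satisfiesL1Bass_gl_three f hfinj _ hP Γ.subtype Γ.subtype_injective
  · have : Finite (ℤ ⧸ Ideal.span ({2} : Set ℤ)) :=
      Finite.of_equiv (ZMod 2) (Int.quotientSpanNatEquivZMod 2).symm.toEquiv
    set ρ : Matrix.SpecialLinearGroup (Fin 3) ℤ →* GL (Fin 3) ℤ := Matrix.SpecialLinearGroup.toGL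
    have hrange : ρ.range = (Matrix.GeneralLinearGroup.det (n := Fin 3) (R := ℤ)).ker := by
      ext g
      constructor
      · rintro ⟨s, rfl⟩
        exact Units.ext s.2
      · intro hg
        exact ⟨⟨g, congrArg Units.val hg⟩, Units.ext rfl⟩
    have : ρ.range.FiniteIndex := by rw [hrange]; infer_instance
    refine satisfiesL1Bass_gl_three (Int.castRingHom ℚ) Int.cast_injective ∅ (fun r p hp hd => ?_) ρ
      Matrix.SpecialLinearGroup.toGL_injective
    simp at hd
    exact absurd hd hp.ne_one

end Vale.Agent.Results.P184.DegreeThree
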