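import Vale.Agent.P184.ExactTwist
import Vale.Agent.P184.Limits
import Vale.Agent.P184.Defs

namespace Vale.Agent.Results.P184.ExactGroups

open Vale.Agent.P184

universe u

/-- In an exact group, every idempotent matrix over ℓ¹(G) has, among the classes with amenable
centraliser, nonzero coefficients only at finitely many classes of finite-order elements. Hence the
ℓ¹-Bass conjecture holds for every exact group in which the nontrivial elements with non-amenable
centraliser are torsion and form finitely many classes, and for every limit of such groups: the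
conjecture passes to groups whose finite partial multiplication tables all lift to groups
satisfying it. -/
theorem result :
    (∀ (G : Type u) [Group G], IsExactGroup G →
      ∀ (q : ℕ) (e : Fin q → Fin q → G → ℂ), IsIdempotentMatrix e →
        ∃ F : Finset (ConjClasses G), (∀ C ∈ F, ∀ g, ConjClasses.mk g = C → IsOfFinOrder g) ∧
          ∀ C ∉ F, ∀ g, ConjClasses.mk g = C →
            IsAmenableGroup (Subgroup.centralizer ({g} : Set G)) → hsTrace e C = 0) ∧
    (∀ (G : Type u) [Group G], IsExactGroup G →
      (∀ g : G, g ≠ 1 → ¬ IsAmenableGroup (Subgroup.centralizer ({g} : Set G)) → IsOfFinOrder g) →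
      {C : ConjClasses G | ∃ g, ConjClasses.mk g = C ∧ g ≠ 1 ∧
        ¬ IsAmenableGroup (Subgroup.centralizer ({g} : Set G))}.Finite →
      SatisfiesL1Bass G) ∧
    (∀ (G : Type u) [Group G],
      IsLimitOf (fun G' _ => SatisfiesL1Bass G') G → SatisfiesL1Bass G) ∧
    (∀ (G : Type u) [Group G],
      IsLimitOf (fun G' _ => IsExactGroup G' ∧
        (∀ g : G', g ≠ 1 → ¬ IsAmenableGroup (Subgroup.centralizer ({g} : Set G')) →
          IsOfFinOrder g) ∧
        {C : ConjClasses G' | ∃ g, ConjClasses.mk g = C ∧ g ≠ 1 ∧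
          ¬ IsAmenableGroup (Subgroup.centralizer ({g} : Set G'))}.Finite) G →
      SatisfiesL1Bass G) := by
  classical
  have main : ∀ (G : Type u) [Group G], IsExactGroup G →
      (∀ g : G, g ≠ 1 → ¬ IsAmenableGroup (Subgroup.centralizer ({g} : Set G)) → IsOfFinOrder g) →
      {C : ConjClasses G | ∃ g, ConjClasses.mk g = C ∧ g ≠ 1 ∧
        ¬ IsAmenableGroup (Subgroup.centralizer ({g} : Set G))}.Finite →
      SatisfiesL1Bass G := by
    intro G _ hG htor hfin q e he
    obtain ⟨F, hF, h1, hF0⟩ := exact_support hG he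
    refine ⟨F ∪ hfin.toFinset, fun C hC g hg => ?_, fun C hC => ?_⟩
    · rcases Finset.mem_union.1 hC with hC | hC
      · exact hF C hC g hg
      · obtain ⟨x, hxC, hx1, hx⟩ := hfin.mem_toFinset.1 hC
        obtain ⟨s, hs⟩ := isConj_iff.1 (ConjClasses.mk_eq_mk_iff_isConj.1 (hxC.trans hg.symm))
        rw [← hs]
        exact (MulAut.conj s).toMonoidHom.isOfFinOrder (htor x hx1 hx)
    · obtain ⟨g, rfl⟩ := C.exists_rep
      simp only [Finset.mem_union, not_or, Set.Finite.mem_toFinset] at hC
      refine hF0 _ hC.1 g rfl (by_contra fun hna => hC.2 ⟨g, rfl, ?_, hna⟩)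
      rintro rfl
      exact hC.1 h1
  refine ⟨fun G _ hG q e he => ?_, main, fun G _ hG => satisfiesL1Bass_of_limit hG,
    fun G _ hG => satisfiesL1Bass_of_limit fun S => ?_⟩
  · obtain ⟨F, hF, -, hF0⟩ := exact_support hG he
    exact ⟨F, hF, hF0⟩
  · obtain ⟨G', iG', ⟨h1, h2, h3⟩, π, σ, hπ, hσ⟩ := hG S
    exact ⟨G', iG', main G' h1 h2 h3, π, σ, hπ, hσ⟩

end Vale.Agent.Results.P184.ExactGroups
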