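import Vale.Agent.P184.Linear

namespace Vale.Agent.Results.P184.LinearGroups

open Vale.Agent.P184

universe u v

/-- For a linear representation of any group over any field, the trace coefficients of every
idempotent matrix over ℓ¹(G) vanish at classes having an eigenvalue that is not a root of unity;
hence at all classes of infinite order for linear groups in positive characteristic and for linear
groups without unipotent elements, with the full conjecture if torsion has finitely many classes. -/
theorem result :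
    (∀ (G : Type u) [Group G] (K : Type v) [Field K] (n : ℕ) (ρ : G →* GL (Fin n) K) (g : G)
        (a : AlgebraicClosure K),
      ((ρ g : Matrix (Fin n) (Fin n) K).charpoly.map
        (algebraMap K (AlgebraicClosure K))).IsRoot a →
      (∀ m : ℕ, 0 < m → a ^ m ≠ 1) →
      ∀ (q : ℕ) (e : Fin q → Fin q → G → ℂ), IsIdempotentMatrix e →
        hsTrace e (ConjClasses.mk g) = 0) ∧
    (∀ (G : Type u) [Group G] (K : Type v) [Field K] (n p : ℕ) [CharP K p],
      p.Prime → ∀ ρ : G →* GL (Fin n) K, Function.Injective ρ →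
      (∀ g : G, ¬ IsOfFinOrder g → ∀ (q : ℕ) (e : Fin q → Fin q → G → ℂ),
        IsIdempotentMatrix e → hsTrace e (ConjClasses.mk g) = 0) ∧
      ({C : ConjClasses G | ∃ g, ConjClasses.mk g = C ∧ IsOfFinOrder g}.Finite →
        SatisfiesL1Bass G)) ∧
    (∀ (G : Type u) [Group G] (K : Type v) [Field K] (n : ℕ) (ρ : G →* GL (Fin n) K),
      (∀ g : G, IsNilpotent ((ρ g : Matrix (Fin n) (Fin n) K) - 1) → g = 1) →
      (∀ g : G, ¬ IsOfFinOrder g → ∀ (q : ℕ) (e : Fin q → Fin q → G → ℂ),
        IsIdempotentMatrix e → hsTrace e (ConjClasses.mk g) = 0) ∧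
      ({C : ConjClasses G | ∃ g, ConjClasses.mk g = C ∧ IsOfFinOrder g}.Finite →
        SatisfiesL1Bass G)) := by
  refine ⟨fun G _ K _ n ρ g a hroot ha q e he => hsTrace_eq_zero_linear ρ g a hroot ha he,
    fun G _ K _ n p _ hp ρ hinj => ?_, fun G _ K _ n ρ hnu => ?_⟩
  · have := Fact.mk hp
    have h : ∀ g : G, ¬ IsOfFinOrder g → ∀ (q : ℕ) (e : Fin q → Fin q → G → ℂ),
        IsIdempotentMatrix e → hsTrace e (ConjClasses.mk g) = 0 := fun g hg q e he =>
      hsTrace_eq_zero_of_no_unipotent ρ
        (fun g' hg' => isOfFinOrder_of_unipotent_charP p ρ hinj g' hg') g hg he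
    exact ⟨h, fun hfin q e he => bassConclusion_of_finite hfin fun g hg => h g hg q e he⟩
  · have h : ∀ g : G, ¬ IsOfFinOrder g → ∀ (q : ℕ) (e : Fin q → Fin q → G → ℂ),
        IsIdempotentMatrix e → hsTrace e (ConjClasses.mk g) = 0 := fun g hg q e he =>
      hsTrace_eq_zero_of_no_unipotent ρ
        (fun g' hg' => by rw [hnu g' ⟨n, hg'⟩]; exact IsOfFinOrder.one) g hg he
    exact ⟨h, fun hfin q e he => bassConclusion_of_finite hfin fun g hg => h g hg q e he⟩

end Vale.Agent.Results.P184.LinearGroups
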